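import Crest.Agent.R241.AF2

/-! Row 346, toolbox T8a (helper66): `μHE[n-1]` on the unit sphere is Mathlib's `toSphere`.
Usage: `T.muHE_sphere : μHE[m] (coe '' A) = volume.toSphere A` when `finrank V = m + 1`. -/

set_option autoImplicit false
set_option linter.unusedSectionVars false
open MeasureTheory Metric Filter Set Module
open scoped ENNReal Topology Pointwise RealInnerProductSpace
open Crest.Agent.R241.AF

noncomputable section

namespace Crest.Agent.N346.T

variable {U V : Type*} [NormedAddCommGroup U] [InnerProductSpace ℝ U] [FiniteDimensional ℝ U]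
  [NormedAddCommGroup V] [InnerProductSpace ℝ V] [FiniteDimensional ℝ V]

/-- derivative of the cone map `(y, r) ↦ r • f y` -/
def coneD (A : U →L[ℝ] V) (w : V) (r : ℝ) : WithLp 2 (U × ℝ) →L[ℝ] V :=
  r • (A ∘L WithLp.fstL 2 ℝ U ℝ) + (WithLp.sndL 2 ℝ U ℝ).smulRight w

theorem jac_coneD (A : U →L[ℝ] V) {w : V} (hw : ‖w‖ = 1) (hA : ∀ u, ⟪w, A u⟫ = 0) {r : ℝ}
    (hr : 0 ≤ r) : jac (coneD A w r) = r ^ finrank ℝ U * jac A := by
  have hA' : ∀ u, ⟪A u, w⟫ = 0 := fun u => by rw [real_inner_comm]; exact hA u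
  set b := stdOrthonormalBasis ℝ U with hb
  have h1 := jac_sq_gram (coneD A w r) (b.prod (OrthonormalBasis.singleton Unit ℝ))
  have h2 := jac_sq_gram A b
  have e : (Matrix.of fun i j => inner ℝ
      (coneD A w r ((b.prod (OrthonormalBasis.singleton Unit ℝ)) i))
      (coneD A w r ((b.prod (OrthonormalBasis.singleton Unit ℝ)) j))) =
      Matrix.fromBlocks ((r ^ 2) • Matrix.of fun i j => inner ℝ (A (b i)) (A (b j))) 0 0 1 := by
    ext i j
    rcases i with i | i <;> rcases j with j | j <;>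
      simp [coneD, inner_smul_left, inner_smul_right, hw, hA, hA', pow_two, mul_assoc]
  rw [e, Matrix.det_fromBlocks_zero₂₁, Matrix.det_smul, ← h2, Matrix.det_one, mul_one,
    Fintype.card_fin, ← pow_mul, mul_comm 2, pow_mul, ← mul_pow] at h1
  exact (pow_left_inj₀ (jac_nonneg _) (mul_nonneg (pow_nonneg hr _) (jac_nonneg _))
    two_ne_zero).1 h1

variable [MeasurableSpace U] [BorelSpace U] [MeasurableSpace V] [BorelSpace V]

theorem muHE_cone {f : U → V} (hf : Differentiable ℝ f) (h1 : ∀ y, ‖f y‖ = 1)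
    (hinj : Function.Injective f) (hd : finrank ℝ V = finrank ℝ U + 1) {s : Set U}
    (hs : MeasurableSet s) :
    μHE[finrank ℝ U] (f '' s) = (finrank ℝ V : ℝ≥0∞) * volume (Ioo (0 : ℝ) 1 • (f '' s)) := by
  set m := finrank ℝ U with hm
  set F : WithLp 2 (U × ℝ) → V := fun q => q.snd • f q.fst with hF
  set S : Set (WithLp 2 (U × ℝ)) := WithLp.ofLp ⁻¹' (s ×ˢ Ioo (0 : ℝ) 1) with hS
  have hmp := WithLp.volume_preserving_ofLp U ℝ
  have hSm : MeasurableSet S := hmp.measurable (hs.prod measurableSet_Ioo)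
  have hperp : ∀ y u, ⟪f y, fderiv ℝ f y u⟫ = 0 := by
    intro y u
    have h2 : (fun y => ⟪f y, f y⟫) = fun _ => (1 : ℝ) := by
      funext y; rw [real_inner_self_eq_norm_sq, h1]; norm_num
    have h3 := fderiv_inner_apply ℝ (hf y) (hf y) u
    rw [h2, real_inner_comm (f y) (fderiv ℝ f y u)] at h3
    simp only [fderiv_fun_const, Pi.zero_apply, zero_apply] at h3
    linarith
  have hF' : ∀ q ∈ S, HasFDerivWithinAt F (coneD (fderiv ℝ f q.fst) (f q.fst) q.snd) S q := by
    intro q _
    have h2 : HasFDerivAt (fun q : WithLp 2 (U × ℝ) => f q.fst)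
        (fderiv ℝ f q.fst ∘L WithLp.fstL 2 ℝ U ℝ) q :=
      (hf q.fst).hasFDerivAt.comp q (WithLp.fstL 2 ℝ U ℝ).hasFDerivAt
    exact ((WithLp.sndL 2 ℝ U ℝ).hasFDerivAt.smul h2).hasFDerivWithinAt
  have hFinj : InjOn F S := by
    intro q hq q' hq' e
    have h2 : q.snd = q'.snd := by
      have := congrArg norm e
      simp only [hF, norm_smul, h1, mul_one, Real.norm_eq_abs] at this
      have h3 : 0 < q.snd := hq.2.1
      have h4 : 0 < q'.snd := hq'.2.1
      rwa [abs_of_pos h3, abs_of_pos h4] at this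
    have h3 : q.fst = q'.fst := by
      simp only [hF, h2] at e
      exact hinj (smul_right_injective V (ne_of_gt (show 0 < q'.snd from hq'.2.1)) e)
    exact WithLp.ofLp_injective 2 (Prod.ext h3 h2)
  have himg : F '' S = Ioo (0 : ℝ) 1 • (f '' s) := by
    ext x
    constructor
    · rintro ⟨q, hq, rfl⟩
      exact ⟨q.snd, hq.2, f q.fst, ⟨q.fst, hq.1, rfl⟩, rfl⟩
    · rintro ⟨r, hr, _, ⟨y, hy, rfl⟩, rfl⟩
      exact ⟨WithLp.toLp 2 (y, r), ⟨hy, hr⟩, rfl⟩
  have hdim : finrank ℝ (WithLp 2 (U × ℝ)) = finrank ℝ V := by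
    rw [hd, (WithLp.linearEquiv 2 ℝ (U × ℝ)).finrank_eq, finrank_prod, finrank_self]
  have h2 := lintegral_jac_eq_muHE_image hSm hF' hFinj
  rw [hdim, InnerProductSpace.euclideanHausdorffMeasure_eq_volume, himg] at h2
  have hf' : ∀ y ∈ s, HasFDerivWithinAt f (fderiv ℝ f y) s y := fun y _ =>
    (hf y).hasFDerivAt.hasFDerivWithinAt
  have h3 := lintegral_jac_eq_muHE_image hs hf' hinj.injOn
  have h4 : ∫⁻ q in S, ENNReal.ofReal (jac (coneD (fderiv ℝ f q.fst) (f q.fst) q.snd)) =
      ∫⁻ q in s ×ˢ Ioo (0 : ℝ) 1,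
        ENNReal.ofReal (jac (fderiv ℝ f q.1)) * ENNReal.ofReal (q.2 ^ m) := by
    rw [← hmp.setLIntegral_comp_preimage_emb (MeasurableEquiv.toLp 2 (U × ℝ)).symm.measurableEmbedding]
    refine setLIntegral_congr_fun hSm fun q hq => ?_
    have h5 : 0 < q.snd := hq.2.1
    rw [jac_coneD _ (h1 _) (hperp _) h5.le, ENNReal.ofReal_mul (by positivity), mul_comm]
    rfl
  have h5 : ∫⁻ r in Ioo (0 : ℝ) 1, ENNReal.ofReal (r ^ m) = ENNReal.ofReal (1 / (m + 1)) := by
    rw [← ofReal_integral_eq_lintegral_ofReal, ← integral_Ioc_eq_integral_Ioo,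
      ← intervalIntegral.integral_of_le zero_le_one, integral_pow]
    · simp
    · exact ((continuous_pow m).integrableOn_Icc).mono_set Ioo_subset_Icc_self
    · exact (ae_restrict_iff' measurableSet_Ioo).2
        (Eventually.of_forall fun r hr => pow_nonneg hr.1.le _)
  rw [← h2, h4, Measure.volume_eq_prod, ← Measure.prod_restrict,
    lintegral_prod_mul (g := fun r : ℝ => ENNReal.ofReal (r ^ m)) (aemeasurable_jac hs hf')
      (by fun_prop), h3, h5, hd, mul_left_comm,
    ← ENNReal.ofReal_natCast, ← ENNReal.ofReal_mul (by positivity)]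
  have : ((m + 1 : ℕ) : ℝ) * (1 / (m + 1)) = 1 := by push_cast; field_simp
  rw [this, ENNReal.ofReal_one, mul_one]

theorem muHE_sphere_of_notMem {m : ℕ} (hd : finrank ℝ V = m + 1) {v : V} (hv : ‖v‖ = 1)
    {A : Set (sphere (0 : V) 1)} (hA : MeasurableSet A) (hvA : ∀ x ∈ A, (x : V) ≠ v) :
    μHE[m] ((↑) '' A : Set V) = (volume : Measure V).toSphere A := by
  have : Fact (finrank ℝ V = m + 1) := ⟨hd⟩
  have hv0 : v ≠ 0 := by rintro rfl; simp at hv
  have hm : finrank ℝ (ℝ ∙ v)ᗮ = m := Submodule.finrank_orthogonal_span_singleton hv0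
  set f : (ℝ ∙ v)ᗮ → V := fun w => (stereoInvFun hv w : V) with hf
  have hdiff : Differentiable ℝ f :=
    ((contDiff_stereoInvFunAux (m := 1)).differentiable one_ne_zero).comp
      (ℝ ∙ v)ᗮ.subtypeL.differentiable
  have hinj : Function.Injective f := fun w w' e => by
    have := congrArg (stereoToFun v) e
    rwa [hf, stereo_right_inv hv, stereo_right_inv hv] at this
  have himg : f '' (stereoInvFun hv ⁻¹' A) = (↑) '' A := by
    ext x
    constructor
    · rintro ⟨w, hw, rfl⟩
      exact ⟨_, hw, rfl⟩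
    · rintro ⟨x, hx, rfl⟩
      have := stereo_left_inv hv (hvA x hx)
      exact ⟨stereoToFun v x, by rwa [mem_preimage, this], congrArg Subtype.val this⟩
  have h := muHE_cone hdiff (fun w => mem_sphere_zero_iff_norm.1 (stereoInvFun hv w).2) hinj
    (by rw [hm, hd]) ((continuous_stereoInvFun hv).measurable hA)
  rw [hm, himg] at h
  rw [h, Measure.toSphere_apply' _ hA]

/-- `μHE[m]` on the unit sphere of an `(m+1)`-dimensional Euclidean space is the polar measure -/
theorem muHE_sphere {m : ℕ} (hd : finrank ℝ V = m + 1) {A : Set (sphere (0 : V) 1)}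
    (hA : MeasurableSet A) : μHE[m] ((↑) '' A : Set V) = (volume : Measure V).toSphere A := by
  have : Nontrivial V := Module.nontrivial_of_finrank_eq_succ hd
  obtain ⟨v, hv⟩ := exists_norm_eq V zero_le_one
  set P : Set (sphere (0 : V) 1) := (↑) ⁻¹' ({v} : Set V) with hP
  have hPm : MeasurableSet P := measurable_subtype_coe (measurableSet_singleton v)
  have hemb : MeasurableEmbedding ((↑) : sphere (0 : V) 1 → V) :=
    MeasurableEmbedding.subtype_coe isClosed_sphere.measurableSet
  have h1 := muHE_sphere_of_notMem hd hv (hA.diff hPm) fun x hx => hx.2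
  have h2 := muHE_sphere_of_notMem hd (v := -v) (by rw [norm_neg, hv]) (hA.inter hPm)
    fun x hx e => by
      have h3 : (x : V) = v := hx.2
      rw [h3] at e
      have h4 : (2 : ℝ) • v = 0 := by rw [two_smul]; nth_rewrite 2 [e]; simp
      rw [smul_eq_zero] at h4
      rcases h4 with h4 | h4
      · norm_num at h4
      · rw [h4] at hv; simp at hv
  rw [← measure_inter_add_sdiff A hPm, ← h1, ← h2, ← measure_union
    ((disjoint_image_iff Subtype.val_injective).2 (disjoint_sdiff_right.mono_left inter_subset_right))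
    (hemb.measurableSet_image.2 (hA.diff hPm)), ← image_union, inter_union_sdiff]

end Crest.Agent.N346.T

end
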