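import Crest.Agent.N346.T.Cone
import Crest.Agent.N346.Defs
import Crest.Agent.R202.SphDiv

/-! Row 346, toolbox T8a (helper66): integrals over coordinate spheres against `μHE[n-1]`.
Usage: `T.integral_sphere`, `T.polar_HE`, `T.div_ball`, `T.sig_real_univ`, `T.muHE_sphere_real`. -/

set_option autoImplicit false
open MeasureTheory Metric Filter Set Module
open scoped ENNReal Topology Pointwise ContDiff
open Crest.GeometryTopology.CoordMetric
open Crest.MathPhysics.ExteriorData
open Crest.Agent.R202.SphDiv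

noncomputable section

namespace Crest.Agent.N346.T

variable {n : ℕ}

theorem measurableEmbedding_smul {R : ℝ} (hR : 0 < R) :
    MeasurableEmbedding fun z : Sph n => R • (z : E n) :=
  (measurableEmbedding_const_smul₀ hR.ne').comp
    (MeasurableEmbedding.subtype_coe isClosed_sphere.measurableSet)

theorem restrict_sphere (hn : 0 < n) {R : ℝ} (hR : 0 < R) :
    (μHE[n - 1] : Measure (E n)).restrict (sphere 0 R) =
      ENNReal.ofReal (R ^ (n - 1)) • Measure.map (fun z : Sph n => R • (z : E n)) (sig n) := by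
  ext s hs
  have hm := (measurableEmbedding_smul (n := n) hR).measurable
  rw [Measure.restrict_apply hs, Measure.smul_apply, Measure.map_apply hm hs, sig,
    ← muHE_sphere (m := n - 1) (by simp; omega) (hm hs)]
  have e : s ∩ sphere 0 R =
      R • ((↑) '' ((fun z : Sph n => R • (z : E n)) ⁻¹' s) : Set (E n)) := by
    ext x
    constructor
    · rintro ⟨h1, h2⟩
      rw [mem_sphere_zero_iff_norm] at h2
      have h3 : R • R⁻¹ • x = x := smul_inv_smul₀ hR.ne' x
      refine ⟨R⁻¹ • x, ⟨⟨R⁻¹ • x, ?_⟩, ?_, rfl⟩, h3⟩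
      · rw [mem_sphere_zero_iff_norm, norm_smul, h2, Real.norm_of_nonneg (by positivity),
          inv_mul_cancel₀ hR.ne']
      · simp only [mem_preimage, h3, h1]
    · rintro ⟨_, ⟨z, hz, rfl⟩, rfl⟩
      refine ⟨hz, ?_⟩
      rw [mem_sphere_zero_iff_norm]
      simp only
      rw [norm_smul, mem_sphere_zero_iff_norm.1 z.2, Real.norm_of_nonneg hR.le, mul_one]
  rw [e, Measure.euclideanHausdorffMeasure_smul₀ _ hR.ne', ENNReal.smul_def, smul_eq_mul,
    smul_eq_mul, ENNReal.ofReal_pow hR.le, ENNReal.coe_pow, ← Real.enorm_eq_ofReal hR.le]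
  rfl

theorem integral_sphere (hn : 0 < n) {R : ℝ} (hR : 0 < R) (f : E n → ℝ) :
    ∫ x in sphere (0 : E n) R, f x ∂μHE[n - 1] =
      R ^ (n - 1) * ∫ z : Sph n, f (R • (z : E n)) ∂(sig n) := by
  rw [restrict_sphere hn hR, integral_smul_measure, (measurableEmbedding_smul hR).integral_map,
    ENNReal.toReal_ofReal (by positivity), smul_eq_mul]

theorem lintegral_sphere (hn : 0 < n) {R : ℝ} (hR : 0 < R) (f : E n → ℝ≥0∞) :
    ∫⁻ x in sphere (0 : E n) R, f x ∂μHE[n - 1] =
      ENNReal.ofReal (R ^ (n - 1)) * ∫⁻ z : Sph n, f (R • (z : E n)) ∂(sig n) := by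
  rw [restrict_sphere hn hR, lintegral_smul_measure, (measurableEmbedding_smul hR).lintegral_map,
    smul_eq_mul]

theorem unitSphereArea_pos (hn : 0 < n) : 0 < unitSphereArea n := by
  unfold unitSphereArea
  have := Real.pi_pos
  have h : 0 < Real.Gamma ((n : ℝ) / 2) := Real.Gamma_pos_of_pos (by positivity)
  positivity

theorem sig_real_univ (hn : 0 < n) : (sig n).real univ = unitSphereArea n := by
  have : Nonempty (Fin n) := ⟨⟨0, hn⟩⟩
  have hn' : (0 : ℝ) < n := by exact_mod_cast hn
  have hG : 0 < Real.Gamma ((n : ℝ) / 2) := Real.Gamma_pos_of_pos (by positivity)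
  have hpi := Real.pi_pos
  rw [sig, Measure.toSphere_real_apply_univ, measureReal_def, EuclideanSpace.volume_ball,
    Fintype.card_fin, finrank_euclideanSpace_fin, Real.Gamma_add_one (by positivity),
    ENNReal.ofReal_one, one_pow, one_mul, ENNReal.toReal_ofReal (by positivity), unitSphereArea,
    Real.sqrt_eq_rpow, ← Real.rpow_natCast, ← Real.rpow_mul hpi.le,
    show 1 / 2 * (n : ℝ) = n / 2 by ring]
  field_simp

theorem muHE_sphere_real (hn : 0 < n) {R : ℝ} (hR : 0 < R) :
    (μHE[n - 1] : Measure (E n)).real (sphere 0 R) = R ^ (n - 1) * unitSphereArea n := by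
  have h := integral_sphere hn hR fun _ => 1
  simpa [sig_real_univ hn] using h

theorem muHE_sphere_eq (hn : 0 < n) {R : ℝ} (hR : 0 < R) :
    (μHE[n - 1] : Measure (E n)) (sphere 0 R) = ENNReal.ofReal (R ^ (n - 1) * unitSphereArea n) := by
  have h := lintegral_sphere hn hR fun _ => 1
  rw [setLIntegral_one, lintegral_one] at h
  rw [h, ENNReal.ofReal_mul (by positivity), ← sig_real_univ hn, ofReal_measureReal]

/-- polar coordinates with `μHE` -/
theorem polar_HE (hn : 0 < n) (f : E n → ℝ) (hf : Integrable f) :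
    ∫ x, f x = ∫ r in Ioi (0 : ℝ), ∫ x in sphere (0 : E n) r, f x ∂μHE[n - 1] := by
  rw [polar hn f hf]
  exact setIntegral_congr_fun measurableSet_Ioi fun r hr => (integral_sphere hn hr f).symm

theorem continuous_slice {f : ℝ → Sph n → ℝ} (hf : Continuous fun p : ℝ × Sph n => f p.1 p.2) :
    Continuous fun ρ : ℝ => ∫ z : Sph n, f ρ z ∂(sig n) := by
  have h := continuous_parametric_integral_of_continuous (μ := sig n) (f := f) hf isCompact_univ
  simpa using h

/-- polar coordinates on a ball -/
theorem integral_ball (hn : 0 < n) {f : E n → ℝ} (hf : Continuous f) {R : ℝ} (hR : 0 ≤ R) :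
    ∫ x in closedBall (0 : E n) R, f x =
      ∫ r in (0 : ℝ)..R, r ^ (n - 1) * ∫ z : Sph n, f (r • (z : E n)) ∂(sig n) := by
  rw [← integral_indicator measurableSet_closedBall, polar hn _
    ((hf.continuousOn.integrableOn_compact (isCompact_closedBall _ _)).integrable_indicator
      measurableSet_closedBall), intervalIntegral.integral_of_le hR, ← Ioi_inter_Iic,
    ← setIntegral_indicator measurableSet_Iic]
  refine setIntegral_congr_fun measurableSet_Ioi fun r hr => ?_
  have hz : ∀ z : Sph n, r • (z : E n) ∈ closedBall (0 : E n) R ↔ r ∈ Iic R := fun z => by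
    rw [mem_closedBall_zero_iff, norm_smul, mem_sphere_zero_iff_norm.1 z.2, mul_one,
      Real.norm_of_nonneg (le_of_lt hr), mem_Iic]
  by_cases h : r ∈ Iic R
  · simp only [indicator_of_mem h, indicator_of_mem ((hz _).2 h)]
  · simp only [indicator_of_notMem h, indicator_of_notMem (fun h' => h ((hz _).1 h')),
      integral_zero, mul_zero]

theorem continuous_pderiv {f : E n → ℝ} (hf : ContDiff ℝ 1 f) (i : Fin n) :
    Continuous (pderiv i f) :=
  (hf.continuous_fderiv one_ne_zero).clm_apply continuous_const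

/-- the divergence theorem on a ball -/
theorem div_ball (hn : 2 ≤ n) (X : VectorField n) (hX : ∀ i, ContDiff ℝ 1 fun x => X x i) {R : ℝ}
    (hR : 0 < R) :
    ∫ x in closedBall (0 : E n) R, divE X x =
      ∫ x in sphere (0 : E n) R, ∑ i, X x i * (x i / R) ∂μHE[n - 1] := by
  have hn0 : 0 < n := by omega
  have hc : Continuous (divE X) := continuous_finsetSum _ fun i _ => continuous_pderiv (hX i) i
  have hΦ : Continuous fun ρ : ℝ =>
      ρ ^ (n - 1) * ∫ z : Sph n, ∑ i, X (ρ • (z : E n)) i * (z : E n) i ∂(sig n) := by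
    refine (continuous_pow _).mul (continuous_slice (continuous_finsetSum _ fun i _ => ?_))
    exact ((hX i).continuous.comp (by fun_prop)).mul (by fun_prop)
  have hΦ' : Continuous fun ρ : ℝ =>
      ρ ^ (n - 1) * ∫ z : Sph n, divE X (ρ • (z : E n)) ∂(sig n) :=
    (continuous_pow _).mul (continuous_slice (hc.comp (by fun_prop)))
  rw [integral_ball hn0 hc hR.le, integral_sphere hn0 hR,
    intervalIntegral.integral_eq_sub_of_hasDerivAt_of_le
      (f' := fun ρ : ℝ => ρ ^ (n - 1) * ∫ z : Sph n, divE X (ρ • (z : E n)) ∂(sig n))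
      hR.le hΦ.continuousOn
      (fun r hr => flux_deriv hn0 (fun i x => X x i) (fun i => (hX i).contDiffOn) hr.1)
      (hΦ'.intervalIntegrable _ _), zero_pow (by omega), zero_mul, sub_zero]
  congr 2
  funext z
  refine Finset.sum_congr rfl fun i _ => ?_
  rw [PiLp.smul_apply, smul_eq_mul, mul_div_cancel_left₀ _ hR.ne']

end Crest.Agent.N346.T

end
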